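import Vale.Agent.P144L.F.Lev
import Vale.Agent.P144L.S.Lev
import Vale.Agent.P144L.S.SzA
import Vale.Agent.P144L.T.Szb
import Vale.Agent.P144L.T.Net
import Vale.Agent.P144L.T.Tel
import Vale.Agent.P144L.R.RkB
import Vale.Agent.P144L.G.Loc
import Vale.Agent.P144L.B.Car
import Vale.Agent.P144L.H.Bhp
import Vale.Agent.P144L.D.Slp
import Vale.Agent.P144L.D.App
import Vale.Agent.P144L.D.Chn
import Vale.Agent.P144U.Geo.Cls

/-!
The boundary estimates with tips.
-/

namespace Vale.Agent.P144L.F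

open Vale.Agent.P144Z

theorem bdP : BdP :=
  bdP_of (S.levL (T.szB (S.szA G.modA G.conL B.barL B.carL) G.cntA)
    (R.rkB G.modA G.conL B.barL B.carL (H.bhpL D.chnL D.dblL) D.slpL D.appL) T.telL T.netL G.cntA)
    (shrH_of (decH_of holS) teleH flatW)

theorem bdL : BdL := bdL_of bdP

end Vale.Agent.P144L.F
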