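import Vale.Agent.P144L.F.Dom
import Vale.Agent.P144L.F.Bd
import Vale.Agent.P144L.G.Raw

/-!
Universality in Lipschitz domains.
-/

namespace Vale.Agent.P144L.F

theorem domK {K : ℝ} (hK : K < 1) : DomL K := domL G.rawL G.torL G.rghL G.deepL bdL hK

end Vale.Agent.P144L.F
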