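import Vale.Agent.P144L.Defs
import Vale.Agent.P144D.I.U.Geo

/-!
The Lipschitz sets belong to the classes of the flow.
-/

namespace Vale.Agent.P144L.F

open Finset Vale.Agent.P144Z Vale.Agent.P144 UL

theorem epi_mono {S : Set (ℤ × ℤ)} {ν : ℂ} {κ κ' : ℝ} (h : Epi S ν κ) (hk : κ ≤ κ') :
    Epi S ν κ' := fun u hu v hv =>
  h u hu v ((mul_le_mul_of_nonneg_right hk (Real.sqrt_nonneg _)).trans hv)

theorem lipK_mono {M : ℕ} {I : Finset (Tor M)} {κ κ' : ℝ} {r r' : ℕ} (h : LipK κ I r)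
    (hk : κ ≤ κ') (hr : r' ≤ r) : LipK κ' I r' := fun z => by
  obtain ⟨S, ν, a, b, c⟩ := h z
  exact ⟨S, ν, a, epi_mono b hk, fun v hv => c v (hv.trans hr)⟩

theorem lipZ_mono {Λ : Finset (ℤ × ℤ)} {κ κ' : ℝ} {r r' : ℕ} (h : LipZ κ Λ r)
    (hk : κ ≤ κ') (hr : r' ≤ r) : LipZ κ' Λ r' := fun z => by
  obtain ⟨S, ν, a, b, c⟩ := h z
  exact ⟨S, ν, a, epi_mono b hk, fun v hv => c v (hv.trans hr)⟩

theorem dig_empty (Λ : Finset (ℤ × ℤ)) (t : ℕ) : dig Λ ∅ t = Λ := by simp [dig]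

theorem qu_of {M : ℕ} [NeZero M] {A : Gauge M} {L J k N : ℕ} {ε : ℝ} (h : BndW A L J ε)
    (k1 : 1 ≤ k) (hk : k ≤ J) : QU L ε k N M A J := by
  obtain ⟨c, c1, c2, h⟩ := h
  refine ⟨∅, by simp, ⟨c, c1, c2, fun j hj => h j (by omega)⟩, c, c1, c2, fun j h1 h2 => ?_⟩
  obtain ⟨κ, s, n, a1, a2, a3, a4, a5⟩ := h j h2
  rw [if_neg (by omega)] at a4
  exact ⟨κ, s, n, a1, a2, a3, a4, a5.sch, fun z _ => a5.cov z⟩

theorem cls (hT : TorL) (hR : RghL) (hB : BdL) {κ : ℝ} (hκ : κ < √2 / 2) {ε : ℝ} (hε : 0 < ε) :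
    ∃ L₀ N D : ℕ, 1 ≤ D ∧ ∀ L ≥ L₀, ∀ k, 1 ≤ k → ∀ D' ≥ D, ∀ (Λ : Finset Site) (r T : ℕ),
      LipZ κ Λ r → D' ≤ r → (∀ v ∈ Λ, zd v 0 ≤ T) → ∀ (M : ℕ) [NeZero M], 4 * (T + r) ≤ M →
        Rgh (Λ.image (prj M)) N (r / D') ∧ ∀ (fr : Bool) (B : Gauge M) (ρ J : ℕ),
          Str (Reg.mk (Λ.image (prj M)) fr).pw B ρ → ρ ≤ r / D' → k ≤ J → D' * sc L J ≤ ρ →
            QU L ε k 0 M ((Reg.mk (Λ.image (prj M)) fr).pw * B) J := by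
  obtain ⟨N, Q, hQ, hR⟩ := hR κ hκ
  obtain ⟨Q', hQ', hB⟩ := hB N
  obtain ⟨L₀, hB⟩ := hB ε hε
  refine ⟨L₀, N, Q + Q', by omega, fun L hL k k1 D' hD Λ r T h1 h2 h3 M _ hM => ?_⟩
  have a1 := hT κ Λ r T M h1 h3 hM
  have a2 := (hR M _ r a1 (by omega) (by omega)).mono
    (Nat.div_le_div_left (show Q ≤ D' by omega) hQ)
  have a3 : r / D' ≤ r := Nat.div_le_self _ _
  refine ⟨a2, fun fr B ρ J b1 b2 b3 b4 => qu_of ?_ k1 b3⟩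
  exact hB L hL M ⟨_, fr⟩ B ρ J (lipK_mono a1 hκ.le (by omega)) (a2.mono b2) b1 (by omega)
    (by omega) ((Nat.mul_le_mul_right _ (by omega)).trans b4)

theorem geo (hT : TorL) (hR : RghL) (hD : DeepL) (hB : BdL) {κ : ℝ} (hκ : κ < √2 / 2) {ε : ℝ}
    (hε : 0 < ε) : ∃ L₀ : ℕ, ∀ L ≥ L₀, ∀ k, 1 ≤ k →
      GeoF (LipZ κ) (QU L ε k 0) L ∧ ∀ κ', GeoK (LipZ κ) (QU L ε k 0) L κ' := by
  obtain ⟨L₀, N, D, hD1, h⟩ := cls hT hR hB hκ hε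
  obtain ⟨C, Q, hQ, hD⟩ := hD
  refine ⟨L₀, fun L hL k k1 => ⟨⟨1, N, D, k, le_rfl, hD1, fun Λ r T h1 h2 _ h3 =>
    ⟨∅, by simp, by simp, fun M _ hM => ?_⟩⟩, fun κ' => ⟨1, N, D + Q, C, k, le_rfl, by omega,
      fun α' κ'' _ _ Λ b r T h1 hb h2 _ h3 => ⟨∅, b, by simp, by simp, fun _ _ => rfl, ?_, by simp,
        by simp, ?_, fun M _ hM => ?_⟩⟩⟩⟩
  · rw [dig_empty]
    exact h L hL k k1 D le_rfl Λ r T h1 h2 h3 M hM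
  · rw [dig_empty]
    exact hb.mono (Nat.div_le_self _ _)
  · rw [dig_empty]
    have a := hD Λ r (lipZ_mono h1 hκ.le le_rfl) (by omega)
    have d : r / (D + Q) ≤ r / Q := Nat.div_le_div_left (by omega) hQ
    exact ⟨fun d' h1 h2 => a.cork d' h1 (h2.trans d), fun d' s h1 h2 h3 => a.conn d' s h1 h2
      (h3.trans d), fun s h1 h2 => a.out s h1 (h2.trans d)⟩
  · rw [dig_empty]
    obtain ⟨a, b⟩ := h L hL k k1 (D + Q) (by omega) Λ r T h1 h2 h3 M hM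
    exact ⟨a, b false⟩

end Vale.Agent.P144L.F
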