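import Vale.Agent.P144L.Defs2
import Vale.Agent.P144E.An4b.Main

/-!
The boundary estimates with tips, from the local coverings.
-/

namespace Vale.Agent.P144L.F

open Finset Vale.Agent.P144Z A4b

variable {M : ℕ} [NeZero M]

theorem level {A : Gauge M} {I Tp : Finset (Tor M)} {c c₁ c₂ β η : ℝ} {N a L ℓ₀ : ℕ}
    (hc₁ : 1 ≤ c₁) (hc₂ : 1 ≤ c₂) (hβ : β ≤ 1) (ha : 1 ≤ a)
    (haL : 2 * a ≤ L) (hℓ : 1 ≤ ℓ₀) (hc : c = 2 * c₁ * c₂ * √(L / (L : ℝ) ^ β))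
    (h1 : ∀ z, (∀ p ∈ Tp, N * (a * (2 * ℓ₀)) ≤ tdist z p) → ∃ Z : Finset (Tor M × ℝ × ℝ),
      (∀ y ∈ Z, NearB I 1 y.1 ∧ 0 < y.2.2 ∧ y.2.2 ≤ y.2.1 ∧ y.2.1 ≤ c₁ * √(a / (a : ℝ) ^ β) ∧
        RkA A (2 * ℓ₀) (a * (2 * ℓ₀)) (11 * (2 * ℓ₀)) y.2.1 y.2.2 y.1) ∧
      ∑ y ∈ Z, y.2.1 * y.2.2 ≤ η * a ∧
      ∀ x, tdist x z ≤ a * (2 * ℓ₀) → NearB I 1 x → ∃ y ∈ Z, tdist x y.1 ≤ 2 * ℓ₀)
    (h2 : ∀ z, (∃ f, f ∉ I ∧ tdist f z ≤ L * ℓ₀ + 1) → ∀ w,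
      hsq A (a * (2 * ℓ₀) : ℕ) (ball z (2 * (a * (2 * ℓ₀)))) w ≤
        c₂ ^ 2 * (((a * (2 * ℓ₀) : ℕ) : ℝ) / (L * ℓ₀ : ℕ)) ^ (1 + β) *
          hsq A (L * ℓ₀ : ℕ) (ball z (2 * (L * ℓ₀))) w) :
    Lv (Gd A (2 * ℓ₀) (L * (2 * ℓ₀)) c) (2 * ℓ₀) (NearB I 1) Tp N a
      (2 * c₂ ^ 2 * η * L * (2 * a / (L : ℝ)) ^ β) 0 := by
  classical
  intro z hz
  obtain ⟨Z, z3, z1, z4⟩ := h1 z hz
  have a0 : (1 : ℝ) ≤ a := by exact_mod_cast ha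
  have l0 : (0 : ℝ) < ℓ₀ := by exact_mod_cast hℓ
  have L0 : (0 : ℝ) < L := by exact_mod_cast (show 0 < L by omega)
  have e1 : ((a * (2 * ℓ₀) : ℕ) : ℝ) / (L * ℓ₀ : ℕ) = 2 * a / L := by
    push_cast
    field_simp
  rw [e1, Real.rpow_add (by positivity), Real.rpow_one] at h2
  have u0 : 0 < (2 * a / (L : ℝ)) ^ β := by positivity
  have T0 : 0 < (L : ℝ) ^ β := by positivity
  have V0 : 0 < (a : ℝ) ^ β := by positivity
  have u1 : (2 * a / (L : ℝ)) ^ β * (L : ℝ) ^ β ≤ 2 * (a : ℝ) ^ β := by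
    rw [← Real.mul_rpow (by positivity) L0.le, div_mul_cancel₀ _ L0.ne',
      Real.mul_rpow (by norm_num) (by positivity)]
    exact mul_le_mul_of_nonneg_right (Real.rpow_le_self_of_one_le one_le_two hβ) V0.le
  generalize (2 * a / (L : ℝ)) ^ β = u at h2 u0 u1
  generalize (L : ℝ) ^ β = T at hc T0 u1
  generalize (a : ℝ) ^ β = V at z3 V0 u1
  obtain ⟨g, g0, g1⟩ : ∃ g : ℝ, 0 < g ∧ g ^ 2 = c₂ ^ 2 * (2 * u * L / a) :=
    ⟨c₂ * √(2 * u * L / a), by positivity, by rw [mul_pow, Real.sq_sqrt (by positivity)]⟩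
  have g2 : c₁ * √(a / V) * g ≤ c := by
    rw [hc, mul_comm 2 c₁, mul_assoc, mul_assoc, mul_assoc]
    refine mul_le_mul_of_nonneg_left (abs_le_of_sq_le_sq' ?_ (by positivity)).2 (by linarith)
    rw [mul_pow, g1, mul_pow, mul_pow, Real.sq_sqrt (by positivity), Real.sq_sqrt (by positivity),
      show a / V * (c₂ ^ 2 * (2 * u * L / a)) = c₂ ^ 2 * L * (2 * u / V) by field_simp,
      show 2 ^ 2 * (c₂ ^ 2 * (L / T)) = c₂ ^ 2 * L * (4 / T) by ring]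
    refine mul_le_mul_of_nonneg_left ?_ (by positivity)
    rw [div_le_div_iff₀ V0 T0]
    linarith
  refine ⟨Z.image fun y => (y.1, y.2.1 * g, y.2.2 * g), ∅, le_rfl, fun y hy => ?_, ?_,
    fun x hx => ?_⟩
  · obtain ⟨y, hb, rfl⟩ := mem_image.1 hy
    obtain ⟨⟨-, f, hf, hf'⟩, b1, b2, b3, hr⟩ := z3 y hb
    refine ⟨by positivity, mul_le_mul_of_nonneg_right b2 g0.le,
      (mul_le_mul_of_nonneg_right b3 g0.le).trans g2,
      rk_up hr (Nat.mul_pos ha (by omega)) fun w => ?_⟩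
    have k1 := RN.hsq_mono A (Nat.cast_nonneg (a * (2 * ℓ₀))) le_rfl
      (E3.ball_mono y.1 (show a * (2 * ℓ₀) ≤ 2 * (a * (2 * ℓ₀)) by omega)) w
    have k2 := RN.hsq_mono A (Nat.cast_nonneg (L * ℓ₀)) (ρ' := (L * (2 * ℓ₀) : ℕ))
      (Nat.cast_le.2 (Nat.mul_le_mul_left _ (by omega)))
      (E3.ball_mono y.1 (show 2 * (L * ℓ₀) ≤ L * (2 * ℓ₀) from le_of_eq (by ring))) w
    have k3 := (k1.trans (h2 y.1 ⟨f, hf, by omega⟩ w)).trans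
      (mul_le_mul_of_nonneg_left k2 (by positivity))
    refine (mul_le_mul_of_nonneg_right k3 (sq_nonneg _)).trans (le_of_eq ?_)
    rw [g1]
    generalize hsq A _ _ w = H
    push_cast
    field_simp
  · rw [sum_image fun y _ y' _ e => ?_]
    · calc _ = (∑ y ∈ Z, y.2.1 * y.2.2) * g ^ 2 := by
            rw [sum_mul]
            exact sum_congr rfl fun y _ => by ring
        _ ≤ η * a * g ^ 2 := mul_le_mul_of_nonneg_right z1 (sq_nonneg _)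
        _ = _ := by
          rw [g1]
          field_simp
    · simp only [Prod.mk.injEq, mul_eq_mul_right_iff, g0.ne', or_false] at e
      exact Prod.ext e.1 (Prod.ext e.2.1 e.2.2)
  · obtain ⟨y, hy, hxy⟩ := z4 x hx.1 hx.2
    exact Or.inl ⟨_, mem_image_of_mem _ hy, hxy⟩

theorem bdP_of (hL : LevL) (hS : ShrH) : BdP := by
  intro N
  obtain ⟨c₁, β₁, hc₁, hβ₁, hβ₁', Q₁, hQ₁, hL⟩ := hL N
  obtain ⟨c₂, β₂, hc₂, hβ₂, hβ₂', Q, hS⟩ := hS N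
  obtain ⟨c₃, hc₃, hD⟩ := B5d.deep deep_est
  obtain ⟨β, hβ, b1', b2'⟩ : ∃ β : ℝ, 0 < β ∧ β ≤ β₁ ∧ β ≤ β₂ :=
    ⟨min β₁ β₂, lt_min hβ₁ hβ₂, min_le_left _ _, min_le_right _ _⟩
  replace hS : ∀ (M : ℕ) [NeZero M] (R : Reg M) (B : Gauge M) (r : ℕ), Rgh R.In N r →
      Str R.pw B r → 4 * r ≤ M → ∀ ℓ ℓ' : ℕ, 1 ≤ ℓ → ℓ ≤ ℓ' → Q * ℓ' ≤ r →
      ∀ z, (∃ f, f ∉ R.In ∧ tdist f z ≤ ℓ' + 1) → ∀ w,
      hsq (R.pw * B) ℓ (ball z (2 * ℓ)) w ≤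
        c₂ ^ 2 * ((ℓ : ℝ) / ℓ') ^ (1 + β) * hsq (R.pw * B) ℓ' (ball z (2 * ℓ')) w :=
    fun M _ R B r a1 a2 a3 ℓ ℓ' a4 a5 a6 z a7 w => (hS M R B r a1 a2 a3 ℓ ℓ' a4 a5 a6 z a7 w).trans
      (mul_le_mul_of_nonneg_right (mul_le_mul_of_nonneg_left (Real.rpow_le_rpow_of_exponent_ge
        (div_pos (by exact_mod_cast a4) (by exact_mod_cast a4.trans a5))
        (div_le_one_of_le₀ (by exact_mod_cast a5) (Nat.cast_nonneg _)) (by linarith))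
        (sq_nonneg _)) (RN.hsq_nonneg _ _ _ _))
  obtain ⟨N', hN'⟩ : ∃ N', N' = N * (Q₁ + 1) + Q₁ := ⟨_, rfl⟩
  refine ⟨Q + (N' + 17), by omega, fun ε hε => ?_⟩
  have θ0 : 0 < (2 : ℝ) ^ β - 1 := sub_pos.2 (Real.one_lt_rpow one_lt_two hβ)
  obtain ⟨W, hW, hW'⟩ : ∃ W : ℝ, 0 ≤ W ∧ W * (2 ^ β - 1) = ((4 * N' + 5) ^ 2 : ℕ) :=
    ⟨_, by positivity, div_mul_cancel₀ _ θ0.ne'⟩
  obtain ⟨η, hη, hηε⟩ : ∃ η : ℝ, 0 < η ∧ 243 * ((W + 1089) * (2 * c₂ ^ 2)) * η ≤ ε := by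
    have h0 : 0 ≤ 243 * ((W + 1089) * (2 * c₂ ^ 2)) := by positivity
    generalize 243 * ((W + 1089) * (2 * c₂ ^ 2)) = X at h0
    refine ⟨ε / (X + ε), by positivity, ?_⟩
    rw [mul_div_assoc', div_le_iff₀ (by positivity)]
    nlinarith
  obtain ⟨a₀, hP⟩ := hL η hη
  obtain ⟨A, hA⟩ : ∃ A, A = (2 * ((N' + 1) * (a₀ + 1)) + 1) ^ 2 + (4 * N' + 5) ^ 2 * 0 +
    1089 * 0 := ⟨_, rfl⟩
  obtain ⟨L₀, hL₀⟩ := consts hc₁ hc₂ hc₃ hβ (by linarith) hε A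
  refine ⟨L₀ + 2 * (a₀ + 1) + 7, fun L hL M _ R Tp B r J hI hB hM hJ hr => ?_⟩
  have L1 : 1 ≤ L := by omega
  obtain ⟨K, k1, k2, k3⟩ := exists_K (a := a₀ + 1) (L := L) (by omega) (by omega)
  obtain ⟨c, hc⟩ : ∃ c, c = 2 * c₁ * c₂ * √(L / (L : ℝ) ^ β) := ⟨_, rfl⟩
  obtain ⟨c1, c2, c4, c3, c5, c6⟩ := hL₀ L (by omega) K k3 c hc
  refine ⟨c, c1, c2, fun j hj => ?_⟩
  have hr' : (Q + (N' + 17)) * (L * sc L j) ≤ r := by
    refine le_trans (Nat.mul_le_mul_left _ ?_) hr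
    unfold sc
    calc L * (8 * L ^ j) = 8 * L ^ (j + 1) := by ring
      _ ≤ _ := Nat.mul_le_mul_left 8 (Nat.pow_le_pow_right L1 hj)
  rw [add_mul] at hr'
  have l1 : 1 ≤ sc L j := Nat.mul_pos (by norm_num) (Nat.pow_pos L1)
  have sch : ∀ z, (∃ f, tdist f z ≤ (L * sc L j : ℕ) ∧ |flux (R.pw * B) f| ≠ 1) →
      RN.Shr (R.pw * B) (sc L j) (L * sc L j) z (c * √((sc L j : ℝ) / (L * sc L j : ℕ))) := by
    rintro z ⟨f, hf, hf'⟩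
    obtain ⟨f', h1, h2⟩ := out_of_flux hB.sign hf'
    have := tdist_triangle f' f z
    exact sch_of hc₁ L1 l1 hc (hS M R B r hI.toRgh hB hM _ _ l1 (Nat.le_mul_of_pos_left _ L1)
      (by omega) z ⟨f', h1, by omega⟩)
  rcases Nat.eq_zero_or_pos j with rfl | hj0
  · refine ⟨1 / 8, 0, L ^ 2, by norm_num, by norm_num, le_rfl, ?_, sch, fun z => ?_⟩
    · rw [if_pos rfl]
      exact loss_zero L1 c4
    · obtain ⟨Z, z1, z2⟩ := cov_zero (show 4 ≤ L by omega) z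
      exact ⟨∅, Z, z1, by simp, by simp, fun x hx _ => Or.inr (Or.inr (z2 x hx))⟩
  · have l2 : 4 * L ≤ 4 * L ^ j := Nat.mul_le_mul_left 4 (Nat.le_self_pow hj0.ne' L)
    have l3 : sc L j = 2 * (4 * L ^ j) := by
      unfold sc
      ring
    rw [l3] at hr' sch ⊢
    generalize 4 * L ^ j = ℓ at hr' sch l2
    have l4 : 17 * (2 * ℓ) ≤ (N' + 17) * (L * (2 * ℓ)) :=
      Nat.mul_le_mul (by omega) (Nat.le_mul_of_pos_left _ L1)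
    refine ⟨c₃ / (L : ℝ) ^ 2, (W + 1089) * (2 * c₂ ^ 2 * η * L), A * (K + 1),
      by positivity, c5, by positivity, ?_, sch, fun z => ?_⟩
    · rw [if_neg hj0.ne']
      exact loss_pos L1 c6
        (by linarith [mul_le_mul_of_nonneg_right hηε (Nat.cast_nonneg (α := ℝ) L)]) c3
    · refine cov_of (G := Gd (R.pw * B) (2 * ℓ) (L * (2 * ℓ)) c) hB.sign (by omega) (by omega)
        (by omega) (fun x => hD M R B r hB x L _ (by omega) (by omega)) ?_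
      rw [hA]
      refine levels Gd.nonneg (by omega) (by omega) (by positivity) hβ.le hW hW' hI.sep k1 k2
        (by omega) (fun b b1 b2 => ?_) z
      have b3 : b * (2 * ℓ) ≤ L * ℓ := (le_of_eq (by ring)).trans (Nat.mul_le_mul_right ℓ b2)
      have b4 : L * ℓ ≤ L * (2 * ℓ) := Nat.mul_le_mul_left _ (by omega)
      have b5 := Nat.mul_le_mul (show Q₁ ≤ N' + 17 by omega) (b3.trans b4)
      have b6 := Nat.mul_le_mul_left Q b4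
      have b7 : 1 ≤ b * (2 * ℓ) := Nat.mul_pos (by omega) (by omega)
      refine level hc₁ hc₂ (by linarith) (by omega) b2 (by omega) hc (fun z hz => ?_)
        (hS M R B r hI.toRgh hB hM _ _ b7 b3 (by omega))
      have b8 : N * (Q₁ * (b * (2 * ℓ)) + 1) ≤ N' * (b * (2 * ℓ)) := by
        rw [hN']
        generalize b * (2 * ℓ) = s at b7
        nlinarith [Nat.zero_le (Q₁ * s), Nat.mul_le_mul_left N b7]
      obtain ⟨Z, z1, z2⟩ := hP b (by omega) M R B r (2 * ℓ) hI.toRgh hB hM (by omega) (by omega) z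
        (hI.far z _ (by omega) fun p hp => b8.trans (hz p hp))
      refine ⟨Z, fun y hy => ?_, z2⟩
      obtain ⟨y1, y2, y3, y4, y5⟩ := z1 y hy
      refine ⟨y1, y2, y3, y4.trans (mul_le_mul_of_nonneg_left (Real.sqrt_le_sqrt ?_)
        (by linarith)), y5⟩
      have : (1 : ℝ) ≤ b := by exact_mod_cast (by omega : 1 ≤ b)
      exact div_le_div_of_nonneg_left (by positivity) (by positivity)
        (Real.rpow_le_rpow_of_exponent_le this b1')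

end Vale.Agent.P144L.F
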